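import Vale.Agent.P214.Bdl.B1

set_option linter.all false

/-! Block DEN (helper342): density points of `{Θ ≥ Q}`; part A: the set `KQ`, mass ratios and
heights at points with an approximate tangent plane. -/

open Set Filter Topology MeasureTheory Metric
open scoped RealInnerProductSpace ENNReal NNReal

namespace Vale.Agent.P214

variable {E : Type*} [NormedAddCommGroup E] [InnerProductSpace ℝ E] [FiniteDimensional ℝ E]
  [MeasurableSpace E] [BorelSpace E]
variable {m : ℕ} {U : Set E} {V : IntegralVarifold m U}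

namespace DEN

/-- the set `{Θ ≥ Q}` in `U`, in terms of the smoothed mass ratios -/
def KQ (V : IntegralVarifold m U) (Q : ℕ) : Set E :=
  {z | z ∈ U ∧ ∀ r, 0 < r → closedBall z r ⊆ U → (Q : ℝ) * cg m ≤ ratio m V.weight z r}

lemma ratio_restrict (μ : Measure E) {x x₁ : E} {r R : ℝ} (hr : 0 < r)
    (h : closedBall x r ⊆ closedBall x₁ R) :
    ratio m (μ.restrict (closedBall x₁ R)) x r = ratio m μ x r := by
  unfold ratio
  congr 1
  refine setIntegral_eq_integral_of_forall_compl_eq_zero fun z hz => ?_
  refine cut_eq_zero hr ?_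
  by_contra hcon
  rw [not_le] at hcon
  exact hz (h (by rw [mem_closedBall, dist_eq_norm]; exact hcon.le))

/-- an open set containing a closed ball contains a larger one -/
lemma exists_larger (hU : IsOpen U) {z : E} {r : ℝ} (hr : 0 < r) (h : closedBall z r ⊆ U) :
    ∃ R, r < R ∧ closedBall z R ⊆ U := by
  obtain ⟨δ, hδ, h1⟩ := (isCompact_closedBall z r).exists_cthickening_subset_open hU h
  refine ⟨r + δ, by linarith, ?_⟩
  rw [cthickening_closedBall hδ.le hr.le] at h1
  rwa [add_comm]

/-- the smoothed mass ratio converges to the density -/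
lemma tendsto_ratio {μ : Measure E} {x : E} {q : ℕ} {T : Submodule ℝ E}
    (h : IsApproxTangent m μ x q T) :
    Tendsto (ratio m μ x) (𝓝[>] 0) (𝓝 (q * cg m)) := by
  obtain ⟨hfin, hlim⟩ := h
  have hcont : Continuous fun y : E => prof (‖y‖ ^ 2) :=
    continuous_prof.comp (by fun_prop)
  have hsupp : HasCompactSupport fun y : E => prof (‖y‖ ^ 2) := by
    refine HasCompactSupport.intro (isCompact_closedBall (0 : E) 1) ?_
    intro y hy
    rw [mem_closedBall, dist_zero_right, not_le] at hy
    exact prof_of_one_le (by nlinarith)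
  have h1 := hlim _ hcont hsupp
  rw [integral_plane hfin] at h1
  refine h1.congr' ?_
  filter_upwards [self_mem_nhdsWithin] with r hr
  have hr0 : (0:ℝ) < r := hr
  unfold ratio
  congr 1
  refine integral_congr_ae (Eventually.of_forall fun z => ?_)
  show prof (‖r⁻¹ • (z - x)‖ ^ 2) = cut x r z
  unfold cut
  rw [norm_smul, norm_inv, Real.norm_of_nonneg hr0.le, mul_pow, inv_pow]
  congr 1
  ring

/-- points with an approximate tangent plane of multiplicity `Q` have density at least `Q` -/
lemma ratio_ge_of_tangent (hU : IsOpen U) (hst : V.IsStationary) {z : E} {q : ℕ}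
    {T : Submodule ℝ E} (h : IsApproxTangent m V.weight z q T) {r : ℝ} (hr : 0 < r)
    (hb : closedBall z r ⊆ U) : (q : ℝ) * cg m ≤ ratio m V.weight z r := by
  obtain ⟨R, hrR, hR⟩ := exists_larger hU hr hb
  have hfin := V.finite_restrict hR
  have hls := V.locStat hst hR
  have hlim := tendsto_ratio h
  refine le_of_tendsto hlim ?_
  filter_upwards [Ioc_mem_nhdsGT hr] with s hs
  have h1 := hls.ratio_mono (x := z) hs.1 hs.2 (closedBall_subset_ball hrR)
  rwa [ratio_restrict _ hs.1 (closedBall_subset_closedBall (hs.2.trans hrR.le)),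
    ratio_restrict _ hr (closedBall_subset_closedBall hrR.le)] at h1

lemma mem_KQ_of_tangent (hU : IsOpen U) (hst : V.IsStationary) {z : E} {q : ℕ}
    {T : Submodule ℝ E} (hz : z ∈ U) (h : IsApproxTangent m V.weight z q T) : z ∈ KQ V q :=
  ⟨hz, fun r hr hb => ratio_ge_of_tangent hU hst h hr hb⟩

/-- `KQ` is relatively closed -/
lemma isClosed_KQ_inter (hU : IsOpen U) (V : IntegralVarifold m U) (Q : ℕ) {x : E} {r : ℝ}
    (hb : closedBall x r ⊆ U) : IsClosed (KQ V Q ∩ closedBall x r) := by
  refine isClosed_of_closure_subset fun z hz => ?_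
  have hzb : z ∈ closedBall x r := by
    have := closure_mono (inter_subset_right : KQ V Q ∩ closedBall x r ⊆ closedBall x r) hz
    rwa [isClosed_closedBall.closure_eq] at this
  have hzU : z ∈ U := hb hzb
  refine ⟨⟨hzU, fun s hs hbs => ?_⟩, hzb⟩
  obtain ⟨R, hsR, hR⟩ := exists_larger hU hs hbs
  have hfin := V.finite_restrict hR
  have hcont : Continuous fun z' : E => ratio m (V.weight.restrict (closedBall z R)) z' s := by
    unfold ratio; exact (continuous_cut_integral s).div_const _
  have hcl : IsClosed {z' : E | (Q:ℝ) * cg m ≤ ratio m (V.weight.restrict (closedBall z R)) z' s} :=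
    isClosed_le continuous_const hcont
  have hfreq : ∃ᶠ z' in 𝓝 z, z' ∈ KQ V Q ∩ closedBall x r := mem_closure_iff_frequently.1 hz
  have hev : ∀ᶠ z' in 𝓝 z, z' ∈ ball z (R - s) := ball_mem_nhds z (by linarith)
  have hfreq2 : ∃ᶠ z' in 𝓝 z, z' ∈
      {z' : E | (Q:ℝ) * cg m ≤ ratio m (V.weight.restrict (closedBall z R)) z' s} := by
    refine (hfreq.and_eventually hev).mono fun z' hz' => ?_
    have h2 : closedBall z' s ⊆ closedBall z R := by
      refine closedBall_subset_closedBall' ?_
      have := mem_ball.1 hz'.2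
      linarith
    have h3 := hz'.1.1.2 s hs (h2.trans hR)
    show (Q:ℝ) * cg m ≤ _
    rwa [ratio_restrict _ hs h2]
  have h4 := hcl.closure_subset (mem_closure_iff_frequently.2 hfreq2)
  have h5 : (Q:ℝ) * cg m ≤ ratio m (V.weight.restrict (closedBall z R)) z s := h4
  rwa [ratio_restrict _ hs (closedBall_subset_closedBall hsR.le)] at h5

lemma isCompact_KQ_inter (hU : IsOpen U) (V : IntegralVarifold m U) (Q : ℕ) {x : E} {r : ℝ}
    (hb : closedBall x r ⊆ U) : IsCompact (KQ V Q ∩ closedBall x r) :=
  (isCompact_closedBall x r).of_isClosed_subset (isClosed_KQ_inter hU V Q hb) inter_subset_right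

/-- an integral over the scaled copies of a test function -/
lemma tendsto_test {μ : Measure E} {x : E} {q : ℕ} {T : Submodule ℝ E}
    (h : IsApproxTangent m μ x q T) {f : E → ℝ} (hf : Continuous f) (hc : HasCompactSupport f) :
    Tendsto (fun r : ℝ => (∫ y, f (r⁻¹ • (y - x)) ∂μ) / r ^ m) (𝓝[>] 0)
      (𝓝 (q * ∫ y in (T : Set E), f y ∂μH[m])) := h.2 f hf hc

end DEN

end Vale.Agent.P214
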