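import Vale.Agent.P214.DEN.B

set_option linter.all false

/-! Block DEN, part C: measures of discs in planes and of small balls. -/

open Set Filter Topology MeasureTheory Metric
open scoped RealInnerProductSpace ENNReal NNReal

namespace Vale.Agent.P214

variable {E : Type*} [NormedAddCommGroup E] [InnerProductSpace ℝ E] [FiniteDimensional ℝ E]
  [MeasurableSpace E] [BorelSpace E]
variable {m : ℕ} {U : Set E} {V : IntegralVarifold m U}

namespace DEN

/-- the `H^m` measure of the unit ball of `R^m` -/
noncomputable def om (m : ℕ) : ℝ :=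
  (μH[m] : Measure (EuclideanSpace ℝ (Fin m))).real (closedBall 0 1)

/-- the disc of radius `r` in the plane `T` -/
def disc (T : Submodule ℝ E) (r : ℝ) : Set E := {t | t ∈ T ∧ ‖t‖ ≤ r}

lemma isCompact_disc (T : Submodule ℝ E) (r : ℝ) : IsCompact (disc T r) := by
  have h1 : disc T r = (T : Set E) ∩ closedBall 0 r := by
    ext t; simp [disc]
  rw [h1]
  exact (isCompact_closedBall (0:E) r).inter_left T.closed_of_finiteDimensional

instance haar_inst (m : ℕ) : (μH[m] : Measure (EuclideanSpace ℝ (Fin m))).IsAddHaarMeasure := by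
  have h1 : ((Module.finrank ℝ (EuclideanSpace ℝ (Fin m)) : ℕ) : ℝ) = m := by
    simp
  rw [← h1]
  infer_instance

lemma om_pos (m : ℕ) : 0 < om m := by
  unfold om
  rw [measureReal_def]
  refine ENNReal.toReal_pos ?_ ?_
  · exact (measure_closedBall_pos _ _ one_pos).ne'
  · exact (isCompact_closedBall _ _).measure_lt_top.ne

lemma measure_disc {T : Submodule ℝ E} (hT : Module.finrank ℝ T = m) {r : ℝ} (hr : 0 ≤ r) :
    μH[m] (disc T r) = ENNReal.ofReal (om m * r ^ m) := by
  let b := (stdOrthonormalBasis ℝ T).reindex (finCongr hT)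
  let i : EuclideanSpace ℝ (Fin m) → E := fun p => ((b.repr.symm p : T) : E)
  have hi : Isometry i := (isometry_subtype_coe).comp b.repr.symm.isometry
  have hnorm : ∀ p, ‖i p‖ = ‖p‖ := fun p => by
    have h2 : ‖(b.repr.symm p : T)‖ = ‖p‖ := b.repr.symm.norm_map p
    exact h2
  have himg : disc T r = i '' closedBall 0 r := by
    ext y
    constructor
    · rintro ⟨hy, hyr⟩
      have hy' : i (b.repr ⟨y, hy⟩) = y := by simp [i]
      refine ⟨b.repr ⟨y, hy⟩, ?_, hy'⟩
      rw [mem_closedBall, dist_zero_right, ← hnorm, hy']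
      exact hyr
    · rintro ⟨p, hp, rfl⟩
      rw [mem_closedBall, dist_zero_right] at hp
      exact ⟨(b.repr.symm p).2, by rw [hnorm]; exact hp⟩
  rw [himg, hi.hausdorffMeasure_image (Or.inl (Nat.cast_nonneg m)),
    Measure.addHaar_closedBall' _ _ hr]
  unfold om
  rw [ENNReal.ofReal_mul measureReal_nonneg, ofReal_measureReal
    (isCompact_closedBall _ _).measure_lt_top.ne, mul_comm]
  simp

lemma measureReal_disc {T : Submodule ℝ E} (hT : Module.finrank ℝ T = m) {r : ℝ} (hr : 0 ≤ r) :
    (μH[m] : Measure E).real (disc T r) = om m * r ^ m := by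
  rw [measureReal_def, measure_disc hT hr, ENNReal.toReal_ofReal]
  have := om_pos m
  positivity

lemma locallyFinite_plane {T : Submodule ℝ E} (hT : Module.finrank ℝ T = m) (R : ℝ) :
    (μH[m] : Measure E) ((T : Set E) ∩ closedBall 0 R) < ⊤ := by
  rcases le_or_gt 0 R with hR | hR
  · have h1 : (T : Set E) ∩ closedBall 0 R = disc T R := by ext t; simp [disc]
    rw [h1, measure_disc hT hR]
    exact ENNReal.ofReal_lt_top
  · rw [closedBall_eq_empty.2 hR]; simp

/-- radial cut-off equal to `1` for `‖y‖ ≤ a` and `0` for `‖y‖ ≥ b` -/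
noncomputable def rad (a b : ℝ) (y : E) : ℝ := max 0 (min 1 ((b - ‖y‖) / (b - a)))

lemma continuous_rad (a b : ℝ) : Continuous (rad a b : E → ℝ) := by
  unfold rad; fun_prop

lemma rad_nonneg (a b : ℝ) (y : E) : 0 ≤ rad a b y := le_max_left _ _

lemma rad_le_one (a b : ℝ) (y : E) : rad a b y ≤ 1 := max_le zero_le_one (min_le_left _ _)

lemma rad_eq_one {a b : ℝ} (hab : a < b) {y : E} (hy : ‖y‖ ≤ a) : rad a b y = 1 := by
  unfold rad
  have : 1 ≤ (b - ‖y‖) / (b - a) := by
    rw [le_div_iff₀ (by linarith)]; linarith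
  rw [min_eq_left this, max_eq_right zero_le_one]

lemma rad_eq_zero {a b : ℝ} (hab : a < b) {y : E} (hy : b ≤ ‖y‖) : rad a b y = 0 := by
  unfold rad
  have : (b - ‖y‖) / (b - a) ≤ 0 := div_nonpos_of_nonpos_of_nonneg (by linarith) (by linarith)
  rw [max_eq_left (by rw [min_le_iff]; right; exact this)]

lemma hasCompactSupport_rad {a b : ℝ} (hab : a < b) : HasCompactSupport (rad a b : E → ℝ) := by
  refine HasCompactSupport.intro (isCompact_closedBall (0 : E) b) fun y hy => ?_
  rw [mem_closedBall, dist_zero_right, not_le] at hy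
  exact rad_eq_zero hab hy.le

lemma rad_plane_ge {T : Submodule ℝ E} (hT : Module.finrank ℝ T = m) {a b : ℝ} (hab : a < b)
    (ha : 0 ≤ a) : om m * a ^ m ≤ ∫ y in (T : Set E), rad a b y ∂μH[m] := by
  have hint : Integrable (rad a b : E → ℝ) ((μH[m] : Measure E).restrict T) := by
    have hsupp : Function.support (rad a b : E → ℝ) ⊆ closedBall 0 b := by
      intro y hy
      rw [mem_closedBall, dist_zero_right]
      by_contra hcon
      exact hy (rad_eq_zero hab (not_le.1 hcon).le)
    rw [← integrableOn_iff_integrable_of_support_subset hsupp]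
    have hfm : IsFiniteMeasure (((μH[m] : Measure E).restrict T).restrict (closedBall 0 b)) :=
      ⟨by
        rw [Measure.restrict_restrict measurableSet_closedBall, Measure.restrict_apply_univ,
          inter_comm]
        exact locallyFinite_plane hT b⟩
    refine (integrable_const (1:ℝ)).mono' (continuous_rad a b).aestronglyMeasurable
      (Eventually.of_forall fun y => ?_)
    rw [Real.norm_of_nonneg (rad_nonneg _ _ _)]; exact rad_le_one _ _ _
  have hdisc : disc T a ⊆ T := fun t ht => ht.1
  calc om m * a ^ m = ∫ y in disc T a, (1:ℝ) ∂μH[m] := by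
        rw [setIntegral_const, measureReal_disc hT ha]; simp
    _ = ∫ y in disc T a, rad a b y ∂μH[m] :=
        (setIntegral_congr_fun (isCompact_disc T a).isClosed.measurableSet
          (fun y hy => rad_eq_one hab hy.2)).symm
    _ ≤ _ := setIntegral_mono_set hint (Eventually.of_forall fun y => rad_nonneg a b y)
        (Eventually.of_forall hdisc)

lemma rad_plane_le {T : Submodule ℝ E} (hT : Module.finrank ℝ T = m) {a b : ℝ} (hab : a < b)
    (hb : 0 ≤ b) : ∫ y in (T : Set E), rad a b y ∂μH[m] ≤ om m * b ^ m := by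
  have hTm : MeasurableSet (T : Set E) := T.closed_of_finiteDimensional.measurableSet
  have hdm : MeasurableSet (disc T b) := (isCompact_disc T b).isClosed.measurableSet
  have h1 : ∫ y in (T : Set E), rad a b y ∂μH[m] = ∫ y in disc T b, rad a b y ∂μH[m] := by
    refine (setIntegral_eq_of_subset_of_forall_diff_eq_zero hTm (fun t ht => ht.1) ?_)
    intro y hy
    refine rad_eq_zero hab ?_
    by_contra hcon
    exact hy.2 ⟨hy.1, (not_le.1 hcon).le⟩
  have hfm : IsFiniteMeasure ((μH[m] : Measure E).restrict (disc T b)) :=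
    ⟨by rw [Measure.restrict_apply_univ, measure_disc hT hb]; exact ENNReal.ofReal_lt_top⟩
  rw [h1]
  calc ∫ y in disc T b, rad a b y ∂μH[m] ≤ ∫ y in disc T b, (1:ℝ) ∂μH[m] := by
        refine integral_mono ?_ (integrable_const _) fun y => rad_le_one a b y
        refine (integrable_const (1:ℝ)).mono' (continuous_rad a b).aestronglyMeasurable
          (Eventually.of_forall fun y => ?_)
        rw [Real.norm_of_nonneg (rad_nonneg _ _ _)]; exact rad_le_one _ _ _
    _ = om m * b ^ m := by rw [setIntegral_const, measureReal_disc hT hb]; simp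

/-- comparison of ball masses and test integrals; the measure is finite near `x` -/
lemma rad_integral_bounds {μ : Measure E} {x : E} {R : ℝ} (hfin : μ (closedBall x R) < ⊤)
    {a b r : ℝ} (hab : a < b) (hr : 0 < r) (hbR : r * b ≤ R) :
    μ.real (closedBall x (r * a)) ≤ ∫ y, rad a b (r⁻¹ • (y - x)) ∂μ ∧
      ∫ y, rad a b (r⁻¹ • (y - x)) ∂μ ≤ μ.real (closedBall x (r * b)) := by
  have hfm : IsFiniteMeasure (μ.restrict (closedBall x R)) :=
    ⟨by rw [Measure.restrict_apply_univ]; exact hfin⟩
  have hcont : Continuous fun y : E => rad a b (r⁻¹ • (y - x)) :=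
    (continuous_rad a b).comp (by fun_prop)
  have hsub : closedBall x (r * b) ⊆ closedBall x R := closedBall_subset_closedBall hbR
  have hn : ∀ y : E, ‖r⁻¹ • (y - x)‖ = ‖y - x‖ / r := fun y => by
    rw [norm_smul, norm_inv, Real.norm_of_nonneg hr.le, inv_mul_eq_div]
  have hz : ∀ y ∉ closedBall x (r * b), rad a b (r⁻¹ • (y - x)) = 0 := by
    intro y hy
    rw [mem_closedBall, dist_eq_norm, not_le] at hy
    refine rad_eq_zero hab ?_
    rw [hn, le_div_iff₀ hr]; linarith
  have hint : Integrable (fun y : E => rad a b (r⁻¹ • (y - x))) μ := by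
    have h1 : IntegrableOn (fun y : E => rad a b (r⁻¹ • (y - x))) (closedBall x R) μ := by
      refine (integrable_const (1:ℝ)).mono' hcont.aestronglyMeasurable
        (Eventually.of_forall fun y => ?_)
      rw [Real.norm_of_nonneg (rad_nonneg _ _ _)]; exact rad_le_one _ _ _
    refine (integrableOn_iff_integrable_of_support_subset ?_).1 h1
    intro y hy
    by_contra hcon
    exact hy (hz y fun h => hcon (hsub h))
  constructor
  · have hlt : μ (closedBall x (r * a)) < ⊤ := by
      refine (measure_mono ?_).trans_lt hfin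
      exact closedBall_subset_closedBall (by nlinarith)
    calc μ.real (closedBall x (r * a)) = ∫ y in closedBall x (r * a), (1:ℝ) ∂μ := by
          rw [setIntegral_const]; simp
      _ = ∫ y in closedBall x (r * a), rad a b (r⁻¹ • (y - x)) ∂μ := by
          refine (setIntegral_congr_fun measurableSet_closedBall fun y hy => ?_).symm
          rw [mem_closedBall, dist_eq_norm] at hy
          refine rad_eq_one hab ?_
          rw [hn, div_le_iff₀ hr]; linarith
      _ ≤ _ := setIntegral_le_integral hint (Eventually.of_forall fun y => rad_nonneg _ _ _)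
  · have hlt : μ (closedBall x (r * b)) < ⊤ := (measure_mono hsub).trans_lt hfin
    calc ∫ y, rad a b (r⁻¹ • (y - x)) ∂μ
        = ∫ y in closedBall x (r * b), rad a b (r⁻¹ • (y - x)) ∂μ :=
          (setIntegral_eq_integral_of_forall_compl_eq_zero hz).symm
      _ ≤ ∫ y in closedBall x (r * b), (1:ℝ) ∂μ := by
          refine setIntegral_mono_on hint.integrableOn
            (integrableOn_const hlt.ne) measurableSet_closedBall fun y _ => rad_le_one _ _ _
      _ = _ := by rw [setIntegral_const]; simp

/-- ball masses at a point with an approximate tangent plane -/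
lemma tendsto_ball {μ : Measure E} {x : E} {q : ℕ} {T : Submodule ℝ E}
    (h : IsApproxTangent m μ x q T) {R : ℝ} (hR : 0 < R) (hfin : μ (closedBall x R) < ⊤) :
    Tendsto (fun r : ℝ => μ.real (closedBall x r) / r ^ m) (𝓝[>] 0) (𝓝 (q * om m)) := by
  rw [tendsto_order]
  have hom := om_pos m
  constructor
  · intro c hc
    -- choose a < 1 with c < q * om * a^m
    have hcont : Tendsto (fun a : ℝ => (q:ℝ) * (om m * a ^ m)) (𝓝[<] 1) (𝓝 (q * (om m * 1 ^ m))) :=
      ((by fun_prop : Continuous fun a : ℝ => (q:ℝ) * (om m * a ^ m)).tendsto 1).mono_left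
        nhdsWithin_le_nhds
    rw [one_pow, mul_one] at hcont
    have h1 := hcont.eventually (lt_mem_nhds hc)
    have h2 : ∀ᶠ a in 𝓝[<] (1:ℝ), a ∈ Ico (0:ℝ) 1 := Ico_mem_nhdsLT zero_lt_one
    obtain ⟨a, ha, ha2⟩ := (h1.and h2).exists
    have h3 := tendsto_test h (continuous_rad a 1) (hasCompactSupport_rad ha2.2)
    have h4 : c < q * ∫ y in (T : Set E), rad a 1 y ∂μH[m] := by
      refine ha.trans_le ?_
      have := rad_plane_ge h.1 ha2.2 ha2.1
      gcongr
    filter_upwards [h3.eventually (lt_mem_nhds h4), Ioc_mem_nhdsGT hR] with r hr hr2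
    have h5 := (rad_integral_bounds hfin ha2.2 hr2.1 (by simpa using hr2.2)).2
    rw [mul_one] at h5
    refine hr.trans_le ?_
    have := hr2.1
    gcongr
  · intro c hc
    have hcont : Tendsto (fun b : ℝ => (q:ℝ) * (om m * b ^ m)) (𝓝[>] 1) (𝓝 (q * (om m * 1 ^ m))) :=
      ((by fun_prop : Continuous fun a : ℝ => (q:ℝ) * (om m * a ^ m)).tendsto 1).mono_left
        nhdsWithin_le_nhds
    rw [one_pow, mul_one] at hcont
    have h1 := hcont.eventually (gt_mem_nhds hc)
    have h2 : ∀ᶠ b in 𝓝[>] (1:ℝ), b ∈ Ioc (1:ℝ) 2 := Ioc_mem_nhdsGT (by norm_num)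
    obtain ⟨b, hb, hb2⟩ := (h1.and h2).exists
    have h3 := tendsto_test h (continuous_rad 1 b) (hasCompactSupport_rad hb2.1)
    have h4 : q * ∫ y in (T : Set E), rad 1 b y ∂μH[m] < c := by
      refine lt_of_le_of_lt ?_ hb
      have := rad_plane_le h.1 hb2.1 (by linarith [hb2.1])
      gcongr
    filter_upwards [h3.eventually (gt_mem_nhds h4),
      Ioc_mem_nhdsGT (show 0 < R / 2 by positivity)] with r hr hr2
    have h5 := (rad_integral_bounds hfin hb2.1 hr2.1
      (by have := hr2.1; nlinarith [hr2.2, hb2.2])).1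
    rw [mul_one] at h5
    refine lt_of_le_of_lt ?_ hr
    have := hr2.1
    gcongr

end DEN

end Vale.Agent.P214
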