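import Vale.Agent.P214.DEN.A

set_option linter.all false

/-! Block DEN, part B: heights of the support over the approximate tangent plane tend to zero. -/

open Set Filter Topology MeasureTheory Metric
open scoped RealInnerProductSpace ENNReal NNReal

namespace Vale.Agent.P214

variable {E : Type*} [NormedAddCommGroup E] [InnerProductSpace ℝ E] [FiniteDimensional ℝ E]
  [MeasurableSpace E] [BorelSpace E]
variable {m : ℕ} {U : Set E} {V : IntegralVarifold m U}

namespace DEN

/-- the test function: capped height times radial cut-off -/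
noncomputable def ht (T : Submodule ℝ E) (ε : ℝ) (y : E) : ℝ :=
  min 1 (2 / ε * ‖y - proj T y‖) * max 0 (min 1 (3 - ‖y‖))

lemma continuous_ht (T : Submodule ℝ E) (ε : ℝ) : Continuous (ht T ε) := by
  unfold ht; fun_prop

lemma hasCompactSupport_ht (T : Submodule ℝ E) (ε : ℝ) : HasCompactSupport (ht T ε) := by
  refine HasCompactSupport.intro (isCompact_closedBall (0 : E) 3) fun y hy => ?_
  rw [mem_closedBall, dist_zero_right, not_le] at hy
  unfold ht
  rw [max_eq_left (by rw [min_le_iff]; right; linarith), mul_zero]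

lemma ht_nonneg (T : Submodule ℝ E) {ε : ℝ} (hε : 0 < ε) (y : E) : 0 ≤ ht T ε y := by
  unfold ht
  have : 0 ≤ 2 / ε * ‖y - proj T y‖ := by positivity
  exact mul_nonneg (le_min zero_le_one this) (le_max_left _ _)

lemma ht_eq_zero {T : Submodule ℝ E} {ε : ℝ} {y : E} (hy : y ∈ T) : ht T ε y = 0 := by
  unfold ht proj
  rw [Submodule.starProjection_eq_self_iff.2 hy]
  simp

lemma ht_eq_one {T : Submodule ℝ E} {ε : ℝ} (hε : 0 < ε) {y : E} (h1 : ‖y‖ ≤ 2)
    (h2 : ε / 2 ≤ ‖y - proj T y‖) : ht T ε y = 1 := by
  unfold ht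
  have h3 : 1 ≤ 2 / ε * ‖y - proj T y‖ := by
    calc (1:ℝ) = 2 / ε * (ε / 2) := by field_simp
      _ ≤ _ := by gcongr
  rw [min_eq_left h3, min_eq_left (by linarith), max_eq_right zero_le_one, one_mul]

lemma tendsto_ht {μ : Measure E} {x : E} {q : ℕ} {T : Submodule ℝ E}
    (h : IsApproxTangent m μ x q T) (ε : ℝ) :
    Tendsto (fun r : ℝ => (∫ y, ht T ε (r⁻¹ • (y - x)) ∂μ) / r ^ m) (𝓝[>] 0) (𝓝 0) := by
  have h1 := tendsto_test h (continuous_ht T ε) (hasCompactSupport_ht T ε)
  have h2 : ∫ y in (T : Set E), ht T ε y ∂μH[m] = 0 := by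
    have h3 : ∀ y ∈ (T : Set E), ht T ε y = 0 := fun y hy => ht_eq_zero hy
    rw [setIntegral_congr_fun (T.closed_of_finiteDimensional.measurableSet) h3]
    simp
  rwa [h2, mul_zero] at h1

/-- **height bound**: over an approximate tangent plane the support is flat -/
lemma height (hU : IsOpen U) (hst : V.IsStationary) {x : E} (hx : x ∈ U) {q : ℕ}
    {T : Submodule ℝ E} (h : IsApproxTangent m V.weight x q T) {ε : ℝ} (hε : 0 < ε) :
    ∀ᶠ r in 𝓝[>] (0:ℝ), ∀ z ∈ V.spt ∩ closedBall x r,
      ‖(z - x) - proj T (z - x)‖ ≤ ε * r := by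
  -- reduce to small ε
  wlog hε1 : ε ≤ 1 generalizing ε
  · filter_upwards [this zero_lt_one le_rfl, self_mem_nhdsWithin] with r hr hr0 z hz
    have hr1 : (0:ℝ) < r := hr0
    refine (hr z hz).trans ?_
    nlinarith [not_le.1 hε1]
  obtain ⟨R, hR0, hR⟩ : ∃ R > 0, closedBall x R ⊆ U :=
    nhds_basis_closedBall.mem_iff.1 (hU.mem_nhds hx)
  have hfin := V.finite_restrict hR
  have hls := V.locStat hst hR
  have hdl := V.densLow (x := x) (R := R)
  have hc := cg_pos m
  have h1 := (tendsto_ht h ε).eventually
    (gt_mem_nhds (show 0 < cg m * (ε / 2) ^ m by positivity))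
  filter_upwards [h1, Ioc_mem_nhdsGT (show 0 < R / 4 by positivity)] with r hr hr2 z hz
  by_contra hcon
  rw [not_le] at hcon
  have hr0 : 0 < r := hr2.1
  have hzx : ‖z - x‖ ≤ r := by rw [← dist_eq_norm]; exact hz.2
  -- the ball around z
  have hzb : z ∈ ball x R := by
    rw [mem_ball, dist_eq_norm]; linarith [hr2.2]
  have hs0 : 0 < ε / 2 * r := by positivity
  have hsub : closedBall z (ε / 2 * r) ⊆ ball x R := by
    refine closedBall_subset_ball' ?_
    rw [dist_eq_norm]
    nlinarith [hr2.2]
  have hlow := hls.ball_lower hdl (V.mem_support hz.1 hzb) hs0 hsub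
  -- the integral is at least the mass of the ball
  have hcont : Continuous fun y : E => ht T ε (r⁻¹ • (y - x)) :=
    (continuous_ht T ε).comp (by fun_prop)
  have hz0 : ∀ y ∉ closedBall x R, ht T ε (r⁻¹ • (y - x)) = 0 := by
    intro y hy
    rw [mem_closedBall, dist_eq_norm, not_le] at hy
    unfold ht
    have h5 : 3 ≤ ‖r⁻¹ • (y - x)‖ := by
      rw [norm_smul, norm_inv, Real.norm_of_nonneg hr0.le, inv_mul_eq_div, le_div_iff₀ hr0]
      linarith [hr2.2]
    rw [max_eq_left (by rw [min_le_iff]; right; linarith), mul_zero]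
  have heq : ∫ y, ht T ε (r⁻¹ • (y - x)) ∂(V.weight.restrict (closedBall x R))
      = ∫ y, ht T ε (r⁻¹ • (y - x)) ∂V.weight :=
    setIntegral_eq_integral_of_forall_compl_eq_zero hz0
  have hint : Integrable (fun y : E => ht T ε (r⁻¹ • (y - x)))
      (V.weight.restrict (closedBall x R)) := by
    refine (integrable_const (1:ℝ)).mono' hcont.aestronglyMeasurable
      (Eventually.of_forall fun y => ?_)
    rw [Real.norm_of_nonneg (ht_nonneg T hε _)]
    unfold ht
    calc _ ≤ (1:ℝ) * 1 := by
          refine mul_le_mul (min_le_left _ _) ?_ (le_max_left _ _) zero_le_one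
          exact max_le zero_le_one (min_le_left _ _)
      _ = 1 := one_mul 1
  have hge : (V.weight.restrict (closedBall x R)).real (ball z (ε / 2 * r))
      ≤ ∫ y, ht T ε (r⁻¹ • (y - x)) ∂(V.weight.restrict (closedBall x R)) := by
    calc (V.weight.restrict (closedBall x R)).real (ball z (ε / 2 * r))
        = ∫ y in ball z (ε / 2 * r), (1:ℝ) ∂(V.weight.restrict (closedBall x R)) := by
          rw [setIntegral_const]; simp
      _ ≤ ∫ y in ball z (ε / 2 * r), ht T ε (r⁻¹ • (y - x))
            ∂(V.weight.restrict (closedBall x R)) := by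
          refine setIntegral_mono_on (integrable_const _).integrableOn hint.integrableOn
            measurableSet_ball fun y hy => ?_
          rw [mem_ball, dist_eq_norm] at hy
          refine (ht_eq_one hε ?_ ?_).ge
          · rw [norm_smul, norm_inv, Real.norm_of_nonneg hr0.le, inv_mul_eq_div,
              div_le_iff₀ hr0]
            have : ‖y - x‖ ≤ ‖y - z‖ + ‖z - x‖ := norm_sub_le_norm_sub_add_norm_sub _ _ _
            nlinarith
          · have h6 : r⁻¹ • (y - x) - proj T (r⁻¹ • (y - x))
                = r⁻¹ • ((y - x) - proj T (y - x)) := by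
              rw [map_smul, ← smul_sub]
            rw [h6, norm_smul, norm_inv, Real.norm_of_nonneg hr0.le, inv_mul_eq_div,
              le_div_iff₀ hr0]
            have h7 : (z - x) - proj T (z - x)
                = ((y - x) - proj T (y - x)) - ((y - z) - proj T (y - z)) := by
              simp only [map_sub]; abel
            have h8 : ‖(y - z) - proj T (y - z)‖ ≤ ‖y - z‖ := by
              have h9 : (y - z) - proj T (y - z) = Tᗮ.starProjection (y - z) := by
                unfold proj
                rw [Submodule.starProjection_orthogonal']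
                simp
              rw [h9]
              exact Tᗮ.norm_starProjection_apply_le _
            have h10 := norm_sub_le ((y - x) - proj T (y - x)) ((y - z) - proj T (y - z))
            rw [← h7] at h10
            linarith
      _ ≤ _ := setIntegral_le_integral hint (Eventually.of_forall fun y => ht_nonneg T hε _)
  rw [heq] at hge
  rw [div_lt_iff₀ (by positivity)] at hr
  have h11 : cg m * (ε / 2 * r) ^ m < cg m * (ε / 2) ^ m * r ^ m := (hlow.trans hge).trans_lt hr
  rw [mul_pow, ← mul_assoc] at h11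
  exact lt_irrefl _ h11

end DEN

end Vale.Agent.P214
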