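import Vale.Agent.P214.DEN.C

set_option linter.all false

/-! Block DEN, part D: almost flat sets project injectively; density of the projection of
`{Θ ≥ Q}`. -/

open Set Filter Topology MeasureTheory Metric
open scoped RealInnerProductSpace ENNReal NNReal

namespace Vale.Agent.P214

variable {E : Type*} [NormedAddCommGroup E] [InnerProductSpace ℝ E] [FiniteDimensional ℝ E]
  [MeasurableSpace E] [BorelSpace E]
variable {m : ℕ} {U : Set E} {V : IntegralVarifold m U}

namespace DEN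

/-- on a set of multiplicity `Q` points (measurable or not) the weight is at most `Q H^m` -/
lemma weight_le {S : Set E} {Q : ℕ} (hS : ∀ y ∈ S, y ∈ V.carrier ∧ V.mult y = Q) :
    V.weight S ≤ Q * μH[m] S := by
  obtain ⟨f, hf, hfe⟩ := aemeasurable_dens V
  have hw : V.weight = (μH[m] : Measure E).withDensity f := by
    rw [weight_eq_withDensity]; exact withDensity_congr_ae hfe
  set M : Set E := {y | f y = Q} with hM
  have hMm : MeasurableSet M := hf (measurableSet_singleton _)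
  have hnull : (μH[m] : Measure E) (S \ M) = 0 := by
    refine measure_mono_null (fun y hy => ?_) (ae_iff.1 hfe)
    intro heq
    refine hy.2 ?_
    show f y = Q
    rw [← heq]
    unfold dens
    rw [indicator_of_mem (hS y hy.1).1, (hS y hy.1).2]
  have h1 : V.weight (S \ M) = 0 := by
    rw [hw]; exact withDensity_absolutelyContinuous _ _ hnull
  set S' := toMeasurable (μH[m] : Measure E) S with hS'
  have hS'm : MeasurableSet S' := measurableSet_toMeasurable _ _
  calc V.weight S ≤ V.weight ((S ∩ M) ∪ (S \ M)) := measure_mono (by rw [inter_union_diff])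
    _ ≤ V.weight (S ∩ M) + V.weight (S \ M) := measure_union_le _ _
    _ = V.weight (S ∩ M) := by rw [h1, add_zero]
    _ ≤ V.weight (S' ∩ M) := measure_mono (inter_subset_inter_left _ (subset_toMeasurable _ _))
    _ = ∫⁻ y in S' ∩ M, f y ∂μH[m] := by rw [hw, withDensity_apply _ (hS'm.inter hMm)]
    _ = ∫⁻ y in S' ∩ M, (Q : ℝ≥0∞) ∂μH[m] :=
        setLIntegral_congr_fun (hS'm.inter hMm) fun y hy => hy.2
    _ = Q * μH[m] (S' ∩ M) := by rw [setLIntegral_const]
    _ ≤ Q * μH[m] S' := by gcongr; exact inter_subset_left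
    _ = Q * μH[m] S := by rw [hS', measure_toMeasurable]

/-- a set whose differences are almost in `T` projects almost isometrically -/
lemma measure_le_image {S : Set E} {T : Submodule ℝ E} {x : E} {η : ℝ} (hη0 : 0 ≤ η) (hη : η < 1)
    (h : ∀ y ∈ S, ∀ z ∈ S, ‖(z - y) - proj T (z - y)‖ ≤ η * ‖z - y‖) :
    μH[m] S ≤ ENNReal.ofReal ((1 / (1 - η)) ^ m) * μH[m] ((fun z => proj T (z - x)) '' S) := by
  set K : ℝ≥0 := Real.toNNReal (1 / (1 - η)) with hK
  have hpos : 0 < 1 - η := by linarith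
  set f : S → E := fun z => proj T ((z : E) - x) with hf
  have hanti : AntilipschitzWith K f := by
    refine AntilipschitzWith.of_le_mul_dist fun y z => ?_
    rw [hK, Real.coe_toNNReal _ (by positivity), Subtype.dist_eq, dist_eq_norm, dist_eq_norm]
    have h1 := h z z.2 y y.2
    have h2 : f y - f z = proj T ((y : E) - z) := by
      simp only [hf]
      rw [← map_sub]
      congr 1
      abel
    rw [h2]
    have h3 : ‖(y : E) - z‖ ≤ ‖((y : E) - z) - proj T ((y : E) - z)‖ + ‖proj T ((y : E) - z)‖ := by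
      have := norm_add_le (((y : E) - z) - proj T ((y : E) - z)) (proj T ((y : E) - z))
      rwa [sub_add_cancel] at this
    rw [one_div, inv_mul_eq_div, le_div_iff₀ hpos]
    nlinarith
  have h1 := hanti.le_hausdorffMeasure_image (d := (m:ℝ)) (Nat.cast_nonneg m) (univ : Set S)
  have h2 : μH[m] (univ : Set S) = μH[m] S := by
    have h3 := (isometry_subtype_coe (s := S)).hausdorffMeasure_image (d := (m:ℝ))
      (Or.inl (Nat.cast_nonneg m)) (univ : Set S)
    rw [image_univ, Subtype.range_coe] at h3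
    exact h3.symm
  have h4 : f '' univ = (fun z => proj T (z - x)) '' S := by
    ext w
    simp only [hf, mem_image, mem_univ, true_and, Subtype.exists]
    constructor
    · rintro ⟨a, ha, rfl⟩; exact ⟨a, ha, rfl⟩
    · rintro ⟨a, ha, rfl⟩; exact ⟨a, ha, rfl⟩
  rw [h2, h4] at h1
  refine h1.trans (le_of_eq ?_)
  congr 1
  rw [ENNReal.rpow_natCast, hK, ENNReal.ofReal_pow (by positivity)]
  rfl

/-- the good sets -/
def SG (V : IntegralVarifold m U) (ε δ : ℝ) (p : E →L[ℝ] E) (Q : ℕ) : Set E :=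
  {y | y ∈ V.spt ∧ y ∈ V.carrier ∧ V.mult y = Q ∧ IsApproxTangent m V.weight y Q (V.tangent y) ∧
    ‖proj (V.tangent y) - p‖ < ε ∧ ∀ r, 0 < r → r < δ → ∀ z ∈ V.spt ∩ closedBall y r,
      ‖(z - y) - proj (V.tangent y) (z - y)‖ ≤ ε * r}

lemma SG_flat {ε δ : ℝ} {p : E →L[ℝ] E} {Q : ℕ} {x y z : E} (hx : x ∈ SG V ε δ p Q)
    (hy : y ∈ SG V ε δ p Q) (hz : z ∈ SG V ε δ p Q) (hε : 0 < ε) (hd : ‖z - y‖ < δ) :
    ‖(z - y) - proj (V.tangent x) (z - y)‖ ≤ 3 * ε * ‖z - y‖ := by
  rcases eq_or_ne z y with rfl | hne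
  · simp
  have h0 : 0 < ‖z - y‖ := norm_pos_iff.2 (sub_ne_zero.2 hne)
  have h1 := hy.2.2.2.2.2 ‖z - y‖ h0 hd z ⟨hz.1, by rw [mem_closedBall, dist_eq_norm]⟩
  have h2 : ‖proj (V.tangent y) - proj (V.tangent x)‖ ≤ 2 * ε := by
    have h3 := hy.2.2.2.2.1
    have h4 := hx.2.2.2.2.1
    calc _ = ‖(proj (V.tangent y) - p) - (proj (V.tangent x) - p)‖ := by congr 1; abel
      _ ≤ ‖proj (V.tangent y) - p‖ + ‖proj (V.tangent x) - p‖ := norm_sub_le _ _
      _ ≤ 2 * ε := by linarith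
  have h5 : ‖proj (V.tangent y) (z - y) - proj (V.tangent x) (z - y)‖ ≤ 2 * ε * ‖z - y‖ := by
    rw [← ContinuousLinearMap.sub_apply]
    exact (ContinuousLinearMap.le_opNorm _ _).trans (by gcongr)
  calc _ = ‖((z - y) - proj (V.tangent y) (z - y))
        + (proj (V.tangent y) (z - y) - proj (V.tangent x) (z - y))‖ := by congr 1; abel
    _ ≤ _ := norm_add_le _ _
    _ ≤ ε * ‖z - y‖ + 2 * ε * ‖z - y‖ := by gcongr
    _ = _ := by ring

/-- every typical point of multiplicity `Q` lies in one of countably many good sets -/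
lemma exists_SG (hU : IsOpen U) (hst : V.IsStationary) {y : E} (hs : y ∈ V.spt)
    (hc : y ∈ V.carrier) (ht : IsApproxTangent m V.weight y (V.mult y) (V.tangent y))
    {ε : ℝ} (hε : 0 < ε) :
    ∃ j k : ℕ, y ∈ SG V ε (1 / ((j:ℝ) + 1))
      (TopologicalSpace.denseSeq (E →L[ℝ] E) k) (V.mult y) := by
  have h1 := height hU hst hs.1 ht hε
  obtain ⟨δ, hδ, h2⟩ := mem_nhdsGT_iff_exists_Ioo_subset.1 h1
  obtain ⟨j, hj⟩ := exists_nat_one_div_lt (show (0:ℝ) < δ from hδ)
  obtain ⟨q, hq⟩ := (TopologicalSpace.denseRange_denseSeq (E →L[ℝ] E)).exists_mem_open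
    (isOpen_ball (x := proj (V.tangent y)) (ε := ε)) ⟨_, mem_ball_self hε⟩
  refine ⟨j, q, hs, hc, rfl, ht, ?_, fun r hr0 hr => h2 ⟨hr0, hr.trans hj⟩⟩
  rw [mem_ball, dist_comm, dist_eq_norm] at hq
  exact hq

/-- lower bound of the projected set at a density point of a good set -/
lemma image_lower {ε δ : ℝ} {p : E →L[ℝ] E} {Q : ℕ} (hQ : 1 ≤ Q) {x : E}
    (hx : x ∈ SG V ε δ p Q) (hε : 0 < ε) (hε1 : 3 * ε < 1) {r : ℝ} (hr : 0 < r)
    (hrδ : 2 * r < δ) :
    V.weight (SG V ε δ p Q ∩ closedBall x r) ≤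
      Q * (ENNReal.ofReal ((1 / (1 - 3 * ε)) ^ m) *
        μH[m] ((fun z => proj (V.tangent x) (z - x)) '' (SG V ε δ p Q ∩ closedBall x r))) := by
  refine (weight_le (Q := Q) fun y hy => ⟨hy.1.2.1, hy.1.2.2.1⟩).trans ?_
  gcongr
  refine measure_le_image (by positivity) hε1 fun y hy z hz => ?_
  refine SG_flat hx hy.1 hz.1 hε ?_
  have h1 : ‖y - x‖ ≤ r := by rw [← dist_eq_norm]; exact hy.2
  have h2 : ‖z - x‖ ≤ r := by rw [← dist_eq_norm]; exact hz.2
  calc ‖z - y‖ = ‖(z - x) - (y - x)‖ := by congr 1; abel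
    _ ≤ ‖z - x‖ + ‖y - x‖ := norm_sub_le _ _
    _ < δ := by linarith

end DEN

end Vale.Agent.P214
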