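import Vale.Agent.P214.DEN.D

set_option linter.all false

/-! Block DEN, part F: the main statement. -/

open Set Filter Topology MeasureTheory Metric
open scoped RealInnerProductSpace ENNReal NNReal

namespace Vale.Agent.P214

variable {E : Type*} [NormedAddCommGroup E] [InnerProductSpace ℝ E] [FiniteDimensional ℝ E]
  [MeasurableSpace E] [BorelSpace E]
variable {m : ℕ} {U : Set E} {V : IntegralVarifold m U}

namespace DEN

/-- from local to global almost everywhere statements -/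
lemma ae_of_local (hU : IsOpen U) (V : IntegralVarifold m U) {p : E → Prop}
    (h : ∀ x₁ R, 0 < R → closedBall x₁ R ⊆ U →
      ∀ᵐ x ∂(V.weight.restrict (closedBall x₁ R)), x ∈ ball x₁ R → p x) :
    ∀ᵐ x ∂V.weight, p x := by
  have hU' : V.weight Uᶜ = 0 := by
    have h1 : ∀ᵐ y ∂V.weight, y ∈ U := by
      filter_upwards [V.ae_mem_carrier] with y hy using V.carrier_subset hy
    exact h1
  rw [ae_iff]
  set B := {a | ¬ p a} with hB
  have hBU : V.weight (B ∩ U) = 0 := by
    refine measure_null_of_locally_null _ fun x₁ hx₁ => ?_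
    obtain ⟨R, hR0, hR⟩ : ∃ R > 0, closedBall x₁ R ⊆ U :=
      nhds_basis_closedBall.mem_iff.1 (hU.mem_nhds hx₁.2)
    refine ⟨B ∩ ball x₁ R, ?_, ?_⟩
    · exact mem_nhdsWithin.2 ⟨ball x₁ R, isOpen_ball, mem_ball_self hR0,
        fun z hz => ⟨hz.2.1, hz.1⟩⟩
    have hae := h x₁ R hR0 hR
    rw [ae_restrict_iff' measurableSet_closedBall] at hae
    have h9 : ∀ᵐ x ∂V.weight, x ∉ B ∩ ball x₁ R := by
      filter_upwards [hae] with x hx hxB
      exact hxB.1 (hx (ball_subset_closedBall hxB.2) hxB.2)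
    exact measure_eq_zero_iff_ae_notMem.2 h9
  refine measure_mono_null (t := (B ∩ U) ∪ Uᶜ) (fun z hz => ?_) (measure_union_null hBU hU')
  by_cases hzU : z ∈ U
  · exact Or.inl ⟨hz, hzU⟩
  · exact Or.inr hzU

/-- density points, for an arbitrary set, with respect to the weight -/
lemma ae_density (hU : IsOpen U) (V : IntegralVarifold m U) (S : Set E) :
    ∀ᵐ x ∂V.weight, x ∈ S → Tendsto
      (fun r => V.weight (S ∩ closedBall x r) / V.weight (closedBall x r)) (𝓝[>] 0) (𝓝 1) := by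
  refine ae_of_local hU V fun x₁ R hR0 hR => ?_
  have hfin := V.finite_restrict hR
  have h1 := Besicovitch.ae_tendsto_measure_inter_div (V.weight.restrict (closedBall x₁ R)) S
  have h2 := ae_imp_of_ae_restrict h1
  filter_upwards [h2] with x hx hxb hxS
  refine (hx hxS).congr' ?_
  have hpos : 0 < R - dist x x₁ := by rw [mem_ball] at hxb; linarith
  filter_upwards [Ioc_mem_nhdsGT hpos] with r hr
  have hsub : closedBall x r ⊆ closedBall x₁ R :=
    closedBall_subset_closedBall' (by linarith [hr.2])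
  rw [Measure.restrict_apply' measurableSet_closedBall,
    Measure.restrict_apply' measurableSet_closedBall, inter_eq_left.2 hsub,
    inter_eq_left.2 (inter_subset_right.trans hsub)]

/-- the projected set -/
def projKQ (V : IntegralVarifold m U) (Q : ℕ) (T : Submodule ℝ E) (x : E) (r : ℝ) : Set E :=
  (fun z => proj T (z - x)) '' (KQ V Q ∩ closedBall x r)

lemma projKQ_subset (V : IntegralVarifold m U) (Q : ℕ) (T : Submodule ℝ E) (x : E) (r : ℝ) :
    projKQ V Q T x r ⊆ disc T r := by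
  rintro _ ⟨z, ⟨-, hz⟩, rfl⟩
  refine ⟨T.starProjection_apply_mem _, ?_⟩
  rw [mem_closedBall, dist_eq_norm] at hz
  exact (T.norm_starProjection_apply_le _).trans hz

lemma isCompact_projKQ (hU : IsOpen U) (V : IntegralVarifold m U) (Q : ℕ) (T : Submodule ℝ E)
    {x : E} {r : ℝ} (hb : closedBall x r ⊆ U) : IsCompact (projKQ V Q T x r) :=
  (isCompact_KQ_inter hU V Q hb).image (by fun_prop)

/-- the density statement at one point and one precision -/
lemma density_one {hU : IsOpen U} (hst : V.IsStationary) {ε δ : ℝ} {p : E →L[ℝ] E} {Q : ℕ}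
    (hQ : 1 ≤ Q) {x : E} (hx : x ∈ SG V ε δ p Q) (hε : 0 < ε) (hε1 : 3 * ε < 1) (hδ : 0 < δ)
    (hd : Tendsto (fun r => V.weight (SG V ε δ p Q ∩ closedBall x r) / V.weight (closedBall x r))
      (𝓝[>] 0) (𝓝 1)) {c : ℝ} (hc0 : 0 ≤ c) (hc : c < (1 - 3 * ε) ^ m * om m) :
    ∀ᶠ r in 𝓝[>] (0:ℝ), ENNReal.ofReal (c * r ^ m) ≤ μH[m] (projKQ V Q (V.tangent x) x r) := by
  have hxU : x ∈ U := hx.1.1
  have hxt := hx.2.2.2.1
  obtain ⟨R, hR0, hR⟩ : ∃ R > 0, closedBall x R ⊆ U :=
    nhds_basis_closedBall.mem_iff.1 (hU.mem_nhds hxU)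
  have hfin : V.weight (closedBall x R) < ⊤ := V.locFinite _ hR (isCompact_closedBall x R)
  have hQr : (0:ℝ) < Q := by exact_mod_cast hQ
  have hpos : 0 < 1 - 3 * ε := by linarith
  have hom := om_pos m
  -- split c = a * b with a < 1 and b < om
  have hlim := tendsto_ball hxt hR0 hfin
  -- choose the precision
  obtain ⟨a, b, ha0, ha1, hb0, hb1, hab⟩ : ∃ a b : ℝ, 0 < a ∧ a < 1 ∧ 0 < b ∧ b < om m ∧
      c ≤ (1 - 3 * ε) ^ m * (a * b) := by
    have hcont : Tendsto (fun s : ℝ => (1 - 3 * ε) ^ m * (s * (s * om m))) (𝓝[<] 1)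
        (𝓝 ((1 - 3 * ε) ^ m * (1 * (1 * om m)))) :=
      ((by fun_prop : Continuous fun s : ℝ => (1 - 3 * ε) ^ m * (s * (s * om m))).tendsto
        1).mono_left nhdsWithin_le_nhds
    rw [one_mul, one_mul] at hcont
    have h1 := hcont.eventually (lt_mem_nhds hc)
    have h2 : ∀ᶠ s in 𝓝[<] (1:ℝ), s ∈ Ioo (0:ℝ) 1 := Ioo_mem_nhdsLT zero_lt_one
    obtain ⟨s, hs, hs2⟩ := (h1.and h2).exists
    refine ⟨s, s * om m, hs2.1, hs2.2, by have := hs2.1; positivity, ?_, hs.le⟩
    nlinarith [hs2.2]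
  have h1 := hd.eventually (lt_mem_nhds (show (ENNReal.ofReal a) < 1 by
    rw [ENNReal.ofReal_lt_one]; exact ha1))
  have h2 := hlim.eventually (lt_mem_nhds (show (Q:ℝ) * b < Q * om m by gcongr))
  filter_upwards [h1, h2, Ioc_mem_nhdsGT hR0, Ioo_mem_nhdsGT (show 0 < δ / 2 by positivity)]
    with r hr1 hr2 hrR hrδ
  have hr0 : 0 < r := hrR.1
  have hbU : closedBall x r ⊆ U := (closedBall_subset_closedBall hrR.2).trans hR
  have hfin2 : V.weight (closedBall x r) < ⊤ :=
    (measure_mono (closedBall_subset_closedBall hrR.2)).trans_lt hfin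
  have h3 := image_lower hQ hx hε hε1 hr0 (by linarith [hrδ.2])
  have h4 : (fun z => proj (V.tangent x) (z - x)) '' (SG V ε δ p Q ∩ closedBall x r)
      ⊆ projKQ V Q (V.tangent x) x r := by
    refine image_mono (inter_subset_inter_left _ fun y hy => ?_)
    exact mem_KQ_of_tangent hU hst hy.1.1 hy.2.2.2.1
  have h5 : V.weight (SG V ε δ p Q ∩ closedBall x r) ≤
      Q * (ENNReal.ofReal ((1 / (1 - 3 * ε)) ^ m) * μH[m] (projKQ V Q (V.tangent x) x r)) :=
    h3.trans (by gcongr)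
  -- lower bound of the weight
  have h6 : ENNReal.ofReal (Q * b * r ^ m) ≤ V.weight (closedBall x r) := by
    rw [lt_div_iff₀ (by positivity)] at hr2
    rw [← ofReal_measureReal hfin2.ne]
    exact ENNReal.ofReal_le_ofReal hr2.le
  have h7 : ENNReal.ofReal a * V.weight (closedBall x r) ≤
      V.weight (SG V ε δ p Q ∩ closedBall x r) := by
    have hne : V.weight (closedBall x r) ≠ 0 := by
      intro h0
      rw [h0] at h6
      have : ENNReal.ofReal (Q * b * r ^ m) ≤ 0 := h6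
      rw [nonpos_iff_eq_zero, ENNReal.ofReal_eq_zero] at this
      have h8 : 0 < Q * b * r ^ m := by positivity
      linarith
    exact (ENNReal.le_div_iff_mul_le (Or.inl hne) (Or.inl hfin2.ne)).1 hr1.le
  have h8 : ENNReal.ofReal a * ENNReal.ofReal (Q * b * r ^ m) ≤
      Q * (ENNReal.ofReal ((1 / (1 - 3 * ε)) ^ m) * μH[m] (projKQ V Q (V.tangent x) x r)) :=
    (by gcongr : _ ≤ ENNReal.ofReal a * V.weight (closedBall x r)).trans (h7.trans h5)
  have hQe : (Q : ℝ≥0∞) = ENNReal.ofReal Q := by simp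
  set k : ℝ := (1 - 3 * ε) ^ m with hk
  have hk0 : 0 < k := by positivity
  have hkk : (1 / (1 - 3 * ε)) ^ m = 1 / k := by rw [hk, one_div_pow]
  have h9 : ENNReal.ofReal (k / Q) * (ENNReal.ofReal a * ENNReal.ofReal (Q * b * r ^ m)) ≤
      ENNReal.ofReal (k / Q) * (Q * (ENNReal.ofReal ((1 / (1 - 3 * ε)) ^ m) *
        μH[m] (projKQ V Q (V.tangent x) x r))) := by gcongr
  have h10 : ENNReal.ofReal (k / Q) * (Q * (ENNReal.ofReal ((1 / (1 - 3 * ε)) ^ m) *
        μH[m] (projKQ V Q (V.tangent x) x r))) = μH[m] (projKQ V Q (V.tangent x) x r) := by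
    rw [hkk, hQe, ← mul_assoc, ← mul_assoc, ← ENNReal.ofReal_mul (by positivity),
      ← ENNReal.ofReal_mul (by positivity)]
    rw [show k / Q * Q * (1 / k) = 1 by field_simp, ENNReal.ofReal_one, one_mul]
  rw [h10] at h9
  refine le_trans ?_ h9
  rw [← ENNReal.ofReal_mul (by positivity), ← ENNReal.ofReal_mul (by positivity)]
  refine ENNReal.ofReal_le_ofReal ?_
  calc c * r ^ m ≤ (k * (a * b)) * r ^ m := by gcongr
    _ = k / Q * (a * (Q * b * r ^ m)) := by field_simp

/-- **DEN**: at almost every point `x`, with `Q` the multiplicity and `T` the tangent plane, the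
projection of `{Θ ≥ Q}` has full density in `T`. -/
theorem ae_density_KQ (hU : IsOpen U) (V : IntegralVarifold m U) (hst : V.IsStationary) :
    ∀ᵐ x ∂V.weight, ∀ ε > 0, ∀ᶠ r in 𝓝[>] (0:ℝ),
      μH[m] (disc (V.tangent x) r \ projKQ V (V.mult x) (V.tangent x) x r)
        ≤ ENNReal.ofReal (ε * r ^ m) := by
  have h1 : ∀ᵐ x ∂V.weight, ∀ i j k Q : ℕ, x ∈ SG V (1 / ((i:ℝ) + 4)) (1 / ((j:ℝ) + 1))
      (TopologicalSpace.denseSeq (E →L[ℝ] E) k) Q → Tendsto
      (fun r => V.weight (SG V (1 / ((i:ℝ) + 4)) (1 / ((j:ℝ) + 1))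
      (TopologicalSpace.denseSeq (E →L[ℝ] E) k) Q ∩ closedBall x r)
        / V.weight (closedBall x r)) (𝓝[>] 0) (𝓝 1) := by
    rw [ae_all_iff]; intro i
    rw [ae_all_iff]; intro j
    rw [ae_all_iff]; intro k
    rw [ae_all_iff]; intro Q
    exact ae_density hU V _
  filter_upwards [h1, V.ae_blowup hU hst, V.ae_mem_carrier, V.tangent_spec] with x hx hxs hxc hxt
  intro ε hε
  have hQ : 1 ≤ V.mult x := V.mult_pos x hxc
  have hxt' : IsApproxTangent m V.weight x (V.mult x) (V.tangent x) := hxt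
  have hfinr : Module.finrank ℝ (V.tangent x) = m := hxt'.1
  have hom := om_pos m
  -- choose i
  have hlim : Tendsto (fun i : ℕ => (1 - 3 * (1 / ((i:ℝ) + 4))) ^ m * om m) atTop
      (𝓝 ((1 - 3 * 0) ^ m * om m)) := by
    have h2 : Tendsto (fun i : ℕ => 1 / ((i:ℝ) + 4)) atTop (𝓝 0) := by
      have h3 : Tendsto (fun i : ℕ => (i:ℝ) + 4) atTop atTop :=
        tendsto_atTop_add_const_right _ _ tendsto_natCast_atTop_atTop
      simp only [one_div]
      exact h3.inv_tendsto_atTop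
    exact (((tendsto_const_nhds.sub (h2.const_mul 3)).pow m).mul_const _)
  rw [mul_zero, sub_zero, one_pow, one_mul] at hlim
  obtain ⟨i, hi⟩ := (hlim.eventually (lt_mem_nhds (show om m - ε < om m by linarith))).exists
  set e : ℝ := 1 / ((i:ℝ) + 4) with he
  have he0 : 0 < e := by positivity
  have he1 : 3 * e < 1 := by
    have hi0 : (0:ℝ) ≤ i := Nat.cast_nonneg i
    rw [he, mul_one_div, div_lt_one (by positivity)]; linarith
  obtain ⟨j, k, hjk⟩ := exists_SG hU hst hxs.1 hxc hxt' he0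
  have hd := hx i j k (V.mult x) hjk
  -- the constant
  set c : ℝ := max 0 (om m - ε) with hc
  have hclt : c < (1 - 3 * e) ^ m * om m := by
    refine max_lt ?_ hi
    have : 0 < 1 - 3 * e := by linarith
    positivity
  have h2 := density_one (hU := hU) hst hQ hjk he0 he1 (by positivity) hd (le_max_left _ _) hclt
  obtain ⟨R, hR0, hR⟩ : ∃ R > 0, closedBall x R ⊆ U :=
    nhds_basis_closedBall.mem_iff.1 (hU.mem_nhds hxs.1.1)
  filter_upwards [h2, Ioc_mem_nhdsGT hR0] with r hr hrR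
  have hr0 : 0 < r := hrR.1
  have hbU : closedBall x r ⊆ U := (closedBall_subset_closedBall hrR.2).trans hR
  have hsub := projKQ_subset V (V.mult x) (V.tangent x) x r
  have hcomp := isCompact_projKQ hU V (V.mult x) (V.tangent x) hbU
  have hdisc := measure_disc hfinr hr0.le
  have hlt : μH[m] (projKQ V (V.mult x) (V.tangent x) x r) ≠ ⊤ :=
    ((measure_mono hsub).trans_lt (by rw [hdisc]; exact ENNReal.ofReal_lt_top)).ne
  rw [measure_diff hsub hcomp.isClosed.measurableSet.nullMeasurableSet hlt, hdisc]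
  refine tsub_le_iff_right.2 ?_
  calc ENNReal.ofReal (om m * r ^ m) ≤ ENNReal.ofReal (ε * r ^ m + c * r ^ m) := by
        refine ENNReal.ofReal_le_ofReal ?_
        have h3 : om m ≤ ε + c := by
          have := le_max_right 0 (om m - ε)
          rw [← hc] at this
          linarith
        nlinarith [pow_pos hr0 m]
    _ = ENNReal.ofReal (ε * r ^ m) + ENNReal.ofReal (c * r ^ m) := by
        refine ENNReal.ofReal_add (by positivity) ?_
        have : 0 ≤ c := le_max_left _ _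
        positivity
    _ ≤ _ := by gcongr

/-- the excess tends to zero almost everywhere -/
theorem ae_excess (hU : IsOpen U) (V : IntegralVarifold m U) (hst : V.IsStationary) :
    ∀ᵐ x ∂V.weight, ∀ ε > 0, ∀ᶠ r in 𝓝[>] (0:ℝ),
      ∫ y in ball x r, ‖proj (V.tangent y) - proj (V.tangent x)‖ ^ 2 ∂V.weight ≤ ε * r ^ m := by
  refine ae_of_local hU V fun x₁ R hR0 hR => ?_
  have hfin := V.finite_restrict hR
  have hls := V.locStat hst hR
  filter_upwards [hls.approx_cont] with x hx hxb ε hε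
  have hpos : 0 < R - dist x x₁ := by rw [mem_ball] at hxb; linarith
  filter_upwards [hx hxb ε hε, Ioc_mem_nhdsGT hpos] with s hs hs2
  refine le_trans (le_of_eq ?_) hs
  rw [Measure.restrict_restrict measurableSet_ball, inter_eq_left.2]
  exact ball_subset_closedBall.trans (closedBall_subset_closedBall' (by linarith [hs2.2]))

/-- **Main statement of block DEN.** -/
theorem den (hU : IsOpen U) (V : IntegralVarifold m U) (hst : V.IsStationary) :
    ∀ᵐ x ∂V.weight, x ∈ V.spt ∧ x ∈ V.carrier ∧ 1 ≤ V.mult x ∧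
      IsApproxTangent m V.weight x (V.mult x) (V.tangent x) ∧ x ∈ KQ V (V.mult x) ∧
      (∀ ε > 0, ∀ᶠ r in 𝓝[>] (0:ℝ),
        ∫ y in ball x r, ‖proj (V.tangent y) - proj (V.tangent x)‖ ^ 2 ∂V.weight ≤ ε * r ^ m) ∧
      (∀ ε > 0, ∀ᶠ r in 𝓝[>] (0:ℝ), ∀ z ∈ V.spt ∩ closedBall x r,
        ‖(z - x) - proj (V.tangent x) (z - x)‖ ≤ ε * r) ∧
      Tendsto (ratio m V.weight x) (𝓝[>] 0) (𝓝 (V.mult x * cg m)) ∧
      Tendsto (fun r : ℝ => V.weight.real (closedBall x r) / r ^ m) (𝓝[>] 0)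
        (𝓝 (V.mult x * om m)) ∧
      (∀ ε > 0, ∀ᶠ r in 𝓝[>] (0:ℝ),
        μH[m] (disc (V.tangent x) r \ projKQ V (V.mult x) (V.tangent x) x r)
          ≤ ENNReal.ofReal (ε * r ^ m)) := by
  filter_upwards [ae_density_KQ hU V hst, ae_excess hU V hst, V.ae_blowup hU hst,
    V.ae_mem_carrier, V.tangent_spec] with x h1 h2 h3 h4 h5
  have h5' : IsApproxTangent m V.weight x (V.mult x) (V.tangent x) := h5
  obtain ⟨R, hR0, hR⟩ : ∃ R > 0, closedBall x R ⊆ U :=
    nhds_basis_closedBall.mem_iff.1 (hU.mem_nhds h3.1.1)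
  refine ⟨h3.1, h4, V.mult_pos x h4, h5', mem_KQ_of_tangent hU hst h3.1.1 h5', h2, ?_,
    tendsto_ratio h5', tendsto_ball h5' hR0 (V.locFinite _ hR (isCompact_closedBall x R)), h1⟩
  exact fun ε hε => height hU hst h3.1.1 h5' hε

end DEN

end Vale.Agent.P214
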